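import Vale.Agent.P052.Geometry

/-!
Borsuk's conjecture fails in dimension 63: there is a finite set of points in 63-dimensional
Euclidean space which is not a union of 64 subsets of smaller diameter.
-/

namespace Vale.Agent.Results.P052.Dimension63

theorem result : ∃ Y : Set (EuclideanSpace ℝ (Fin 63)),
    Y.Finite ∧ 0 < Metric.diam Y ∧
    ∀ P : Fin 64 → Set (EuclideanSpace ℝ (Fin 63)), Y = ⋃ i, P i →
      ∃ i, Metric.diam Y ≤ Metric.diam (P i) := by
  refine ⟨Vale.Agent.P052.theSet, Vale.Agent.P052.theSet_finite, ?_, ?_⟩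
  · rw [Vale.Agent.P052.diam_theSet]
    positivity
  · intro P hP
    exact Vale.Agent.P052.theSet_main P hP

end Vale.Agent.Results.P052.Dimension63
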